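import Crest.Agent.X212.Rdc90.Defs
import Crest.Agent.X212.Std94.Smo

/-!
# X212/Rd3/Main (helper3): RDEC on bounded gaps and on ends, from the leaves
-/

set_option autoImplicit false
set_option linter.unusedSectionVars false
noncomputable section
open scoped Manifold ContDiff Topology InnerProductSpace
open MeasureTheory Set Function Filter Real

namespace Crest.Agent.X212.Rd3
open An Nd18 Cyf70 Rdc90 Bki64 Pj41
open Tmp64 (Eq0 AdmOn)
open Neck67 (Lb)

section gen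
variable {E : Type} [NormedAddCommGroup E] [NormedSpace ℝ E] [FiniteDimensional ℝ E]
  [MeasurableSpace E] [BorelSpace E]
  {HM : Type} [TopologicalSpace HM] {I : ModelWithCorners ℝ E HM}
  {M : Type} [TopologicalSpace M] [ChartedSpace HM M] [IsManifold I ∞ M]
  [MeasurableSpace M] {ι : Type} [Fintype ι] {lam : Type} [Fintype lam] {r r' r'' : ℕ}
  {F : Fr I M ι} {c : Cfg M ι lam r} {c' : Cfg M ι lam r'} {c'' : Cfg M ι lam r''}
  {u : M → CL c.m.V c'.m.V} {n : M → CL c'.m.V c''.m.V} {O : Set M} {k : ℕ} {η η' K : ℝ}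

theorem lb_ad {V W : Type} [NormedAddCommGroup V] [InnerProductSpace ℝ V] [FiniteDimensional ℝ V]
    [NormedAddCommGroup W] [InnerProductSpace ℝ W] [FiniteDimensional ℝ W] {f : M → V →L[ℝ] W}
    (hO : IsOpen O) (h : Lb F.toPre O k f K) (hK : 0 ≤ K) : Lb F.toPre O k (fun x => ad (f x)) K :=
  have := FiniteDimensional.complete ℝ V
  have := FiniteDimensional.complete ℝ W
  (h.clm hO adL).mono (mul_le_of_le_one_left hK
    (ContinuousLinearMap.opNorm_le_bound _ zero_le_one fun A => by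
      rw [one_mul]
      exact (congrArg norm (ad_eq_adjoint A)).trans_le (LinearIsometryEquiv.norm_map _ A).le))

theorem lb_ap {α V : Type} [Fintype α] [NormedAddCommGroup V] [NormedSpace ℝ V] {f : M → Fm α V}
    (hO : IsOpen O) (h : Lb F.toPre O k f η) (hη : 0 ≤ η) (a : α) :
    Lb F.toPre O k (fun x => f x a) η :=
  (h.clm hO (PiLp.proj 2 (fun _ : α => V) a)).mono (mul_le_of_le_one_left hη
    (ContinuousLinearMap.opNorm_le_bound _ zero_le_one fun v => by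
      rw [one_mul]; exact PiLp.norm_apply_le v a))

/-- quantitative composition -/
theorem cl_comp (h : Cl F c c' u (fun _ => 1) O k η) (h' : Cl F c' c'' n (fun _ => 1) O k η')
    (hn : Lb F.toPre O k n K) (hJ : c''.m.J * c''.m.J = -1) (h0 : 0 ≤ η) (hK : 0 ≤ K) :
    Cl F c c'' (fun x => n x ∘L u x) (fun _ => 1) O k (η' + 2 ^ k * K * (2 ^ k * K + 1) * η) := by
  have o := h.op
  have h1 := lb_ad o hn hK
  have e1 : η' + 2 ^ k * |K| * |2 ^ k * |η| * abs K| ≤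
      η' + 2 ^ k * K * (2 ^ k * K + 1) * η ∧ η' + 2 ^ k * |K| * |η| ≤
      η' + 2 ^ k * K * (2 ^ k * K + 1) * η := by
    rw [abs_of_nonneg hK, abs_of_nonneg h0, abs_of_nonneg (by positivity)]
    have h2 : 0 ≤ 2 ^ k * K * η := by positivity
    have h3 : 0 ≤ 2 ^ k * K * (2 ^ k * K) * η := by positivity
    constructor <;> nlinarith
  refine ⟨o, h.iso.trans h'.iso, fun a => ?_, ?_⟩
  · have h2 := (h'.A a).add o (hn.comp o ((h.A a).comp o h1))
    exact (h2.mono e1.1).congr o fun x hx => dA_comp h.iso h'.iso hx a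
  · have h2 := h'.P.add o (hn.app o h.P)
    refine (h2.mono e1.2).congr o fun x hx => ?_
    have := dP_comp (u := u) hJ h'.iso hx 1 1
    rwa [mul_one, csB_apply, Circle.coe_one, Eqv71.cs_one] at this

/-- composition with an exact equivalence -/
theorem cl_eq0 {c' : Cfg M ι lam 0} {u : M → CL c.m.V c'.m.V} {n : M → CL c'.m.V c''.m.V}
    (h : Eq0 F (noz c) c' O u) (h' : Cl F c' c'' n (fun _ => 1) O k η) :
    Cl F c c'' (fun x => n x ∘L u x) (fun _ => 1) O k η := by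
  refine ⟨h'.op, h.iso.trans h'.iso, fun a => (h'.A a).congr h'.op fun x hx => ?_,
    h'.P.congr h'.op fun x hx => ?_⟩
  · rw [dA_comp (c := c) h.iso h'.iso hx a, show dA F c c' u a x = 0 by
      rw [dA, show cov F c c' u a x = 0 from h.par x hx a, ContinuousLinearMap.zero_comp]]
    simp
  · rw [dP, dP, h.Φ x hx]
    rfl

end gen

/-! ### the weight -/

/-- the weight of a gap -/
def wt (l p q s : ℝ) : ℝ := exp (-l * (s - p)) + exp (-l * (q - s))

theorem wt_pos (l p q s : ℝ) : 0 < wt l p q s := by unfold wt; positivity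

theorem wt_four {l p q s t : ℝ} (hl : 0 < l) (ht : t ∈ Ioo (s - 2) (s + 2)) :
    exp (-l * (t - (p - 3))) + exp (-l * (q + 3 - t)) ≤ (wt (l / 4) p q s ^ 2) ^ 2 := by
  have h1 : exp (-l * (t - (p - 3))) ≤ exp (-(l / 4) * (s - p)) ^ 4 := by
    rw [← exp_nat_mul]
    exact exp_le_exp.2 (by push_cast; nlinarith [ht.1])
  have h2 : exp (-l * (q + 3 - t)) ≤ exp (-(l / 4) * (q - s)) ^ 4 := by
    rw [← exp_nat_mul]
    exact exp_le_exp.2 (by push_cast; nlinarith [ht.2])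
  rw [← pow_mul]
  exact (add_le_add h1 h2).trans (pow_add_pow_le (exp_pos _).le (exp_pos _).le (by norm_num))

theorem wt_int {l p q : ℝ} (hl : 0 < l) {c : ℝ} (hc : 0 ≤ c) (s : ℝ) :
    |∫ t in (p + q) / 2..s, c * wt l p q t| ≤ c * wt l p q s / l := by
  have h : ∀ t, HasDerivAt (fun t => c * (exp (-l * (q - t)) - exp (-l * (t - p))) / l)
      (c * wt l p q t) t := fun t =>
    ((((((hasDerivAt_id t).const_sub q).const_mul (-l)).exp.sub
      (((hasDerivAt_id t).sub_const p).const_mul (-l)).exp).const_mul c).div_const l).congr_deriv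
      (by simp only [wt, id]; field_simp; ring)
  rw [intervalIntegral.integral_eq_sub_of_hasDerivAt (fun t _ => h t)
    (Continuous.intervalIntegrable (by unfold wt; fun_prop) _ _),
    show q - (p + q) / 2 = (p + q) / 2 - p by ring, sub_self, mul_zero, zero_div, sub_zero, abs_div,
    abs_mul, abs_of_nonneg hc, abs_of_pos hl]
  gcongr
  rw [abs_le, wt]
  constructor <;> linarith [exp_pos (-l * (q - s)), exp_pos (-l * (s - p))]

theorem wt_le {l p q s : ℝ} (hl : 0 < l) : wt l p q s ≤ 2 * exp (-l * min (s - p) (q - s)) ∧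
    wt l p q ((p + q) / 2) ≤ 2 * exp (-l * min (s - p) (q - s)) := by
  have h1 := min_le_left (s - p) (q - s)
  have h2 := min_le_right (s - p) (q - s)
  have h : ∀ x, min (s - p) (q - s) ≤ x → exp (-l * x) ≤ exp (-l * min (s - p) (q - s)) :=
    fun x hx => exp_le_exp.2 (by nlinarith)
  rw [two_mul]
  exact ⟨add_le_add (h _ h1) (h _ h2), add_le_add (h _ (by linarith)) (h _ (by linarith))⟩

theorem wt_two {l p q s : ℝ} (hl : 0 < l) (hs : s ∈ Icc p q) : wt l p q s ≤ 2 :=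
  (add_le_add (exp_le_one_iff.2 (by nlinarith [hs.1])) (exp_le_one_iff.2
    (by nlinarith [hs.2]))).trans_eq one_add_one_eq_two

theorem small (a : ℝ) {b : ℝ} (hb : 0 < b) : ∀ᶠ ε in 𝓝[>] (0 : ℝ), a * ε ≤ b :=
  mem_nhdsWithin_of_mem_nhds ((continuous_const.mul continuous_id).continuousAt.eventually
    (ge_mem_nhds (by simpa using hb)))

variable {E3 : Type} [NormedAddCommGroup E3] [NormedSpace ℝ E3] [FiniteDimensional ℝ E3]
  [MeasurableSpace E3] [BorelSpace E3]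
  {H3 : Type} [TopologicalSpace H3] {I3 : ModelWithCorners ℝ E3 H3} [I3.Boundaryless]
  {Y : Type} [TopologicalSpace Y] [ChartedSpace H3 Y] [IsManifold I3 ∞ Y] [T2Space Y]
  [MeasurableSpace Y] [BorelSpace Y] [SecondCountableTopology Y] [CompactSpace Y]
  {κ : Type} [Fintype κ] {lam : Type} [Fintype lam]

/-- **RDEC on bounded gaps** -/
theorem dece (bas : BasStmt I3 Y κ lam) (loj : LojStmt I3 Y κ lam) (near : NearStmt I3 Y κ lam)
    (ipl : IplStmt I3 Y κ) (wn : WinStmt I3 Y κ lam) (cvx : CvxStmt I3 Y κ lam)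
    (tmp : TmpStmt I3 Y κ lam) : DeceStmt I3 Y κ lam := by
  intro D β hb hc hp
  obtain ⟨-, b2, b3, b4, b5, b6⟩ := bas D β hb.ok hb.adm
  obtain ⟨l, hl, η₁, hη₁, j₁, C₁, hC₁, cv⟩ := cvx D β hb hp (loj D β hb hc)
  have hl4 : 0 < l / 4 := by positivity
  refine ⟨l / 4, hl4, fun k B hB => ?_⟩
  obtain ⟨j₃, K₃, hK₃, tm⟩ := tmp D β hb.ok hb.adm hb.zr k
  obtain ⟨j₄, K₄, hK₄, nr⟩ := near D β hb hc k
  obtain ⟨η₄, hη₄, nr⟩ := nr B hB
  obtain ⟨j₅, K₅, hK₅, iF⟩ := ipl D.F hb.dim.le (Fm (Option κ × Option κ) β.m.A) (j₃ + j₄)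
  obtain ⟨j₆, K₆, hK₆, iP⟩ := ipl D.F hb.dim.le β.m.V (j₃ + j₄)
  obtain ⟨C₅, b5⟩ := b5 hb.flat j₅
  obtain ⟨A, a1, a2, a3⟩ : ∃ A : ℝ, 1 ≤ A ∧ C₁ ≤ A ^ 2 ∧ C₅ ≤ A :=
    ⟨1 + C₁ + |C₅|, by linarith [abs_nonneg C₅], by nlinarith [abs_nonneg C₅],
      by linarith [le_abs_self C₅]⟩
  obtain ⟨ε, ⟨e1, e2, e3, e4, e5, e6⟩, e0⟩ := (((small 1 hη₁).and ((small 1 one_pos).and
    ((small 1 hη₄).and ((small (2 * ((K₅ + K₆ + 1) * A)) one_pos).and
    ((small (2 * ((K₅ + K₆ + 1) * A)) hl4).and (small (2 * (K₄ + 2 ^ k * K₄ * (2 ^ k * K₄ + 1) *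
      (K₃ * (1 + 1 / (l / 4)))) * ((K₅ + K₆ + 1) * A)) hB)))))).and self_mem_nhdsWithin).exists
  replace e0 : 0 < ε := e0
  rw [one_mul] at e1 e2 e3
  obtain ⟨η, hη, w⟩ := wn D β hb.ok hb.adm hb.zr (j₁ + j₃ + j₄ + j₅ + j₆ + 1) ε e0
  refine ⟨η, hη, fun r c p q hpq hN => ?_⟩
  obtain ⟨α, Φ, u, sv, eq, lα, lΦ, -, hu⟩ := w r c p q hpq hN
  have ho : IsOpen (univ ×ˢ Ioo (p - 4) (q + 4) : Set (Y × ℝ)) := isOpen_univ.prod isOpen_Ioo
  have sub : ∀ s ∈ Icc p q, ∀ L ≤ 4, win Y s L ⊆ univ ×ˢ Ioo (p - 4) (q + 4) := fun s hs L hL =>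
    prod_mono_right (Ioo_subset_Ioo (by linarith [hs.1]) (by linarith [hs.2]))
  obtain ⟨z1, z2, z3⟩ := b3 α Φ sv
  have cv := cv α Φ sv (Ioo (p - 4) (q + 4)) ε (p - 3) (q + 3) isOpen_Ioo
    (Icc_subset_Ioo (by linarith) (by linarith)) e0.le e1 eq (lα.of_le (by omega))
    (lΦ.of_le (by omega))
  obtain ⟨c₀, hc₀⟩ : ∃ c₀, c₀ = (K₅ + K₆ + 1) * A * ε := ⟨_, rfl⟩
  have p0 : 0 < c₀ := by rw [hc₀]; positivity
  have key : ∀ s ∈ Icc p q,
      Lb D.Z.toPre (win Y s 1) (j₃ + j₄) ((zc β α Φ).m.Fg D.Z (zc β α Φ).W)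
        (c₀ * wt (l / 4) p q s) ∧ Lb D.Z.toPre (win Y s 1) (j₃ + j₄) Φ (c₀ * wt (l / 4) p q s) :=
    fun s hs => by
      have w0 := wt_pos (l / 4) p q s
      have h1 : ∀ t ∈ Ioo (s - 2) (s + 2), GF D (zc β α Φ) t + GP D (zc β α Φ) t ≤
          (A * ε * wt (l / 4) p q s ^ 2) ^ 2 := fun t ht =>
        (cv t ⟨by linarith [ht.1, hs.1], by linarith [ht.2, hs.2]⟩).trans (by
          rw [mul_pow, mul_pow]
          gcongr
          exact wt_four hl ht)
      have h2 : √(A * ε * wt (l / 4) p q s ^ 2 * (A * ε)) = A * ε * wt (l / 4) p q s := by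
        rw [sqrt_eq_iff_mul_self_eq_of_pos (by positivity)]; ring
      have h3 : ∀ K, K ≤ K₅ + K₆ + 1 → K * √(A * ε * wt (l / 4) p q s ^ 2 * (A * ε)) ≤
          c₀ * wt (l / 4) p q s := fun K hK => by
        rw [h2, hc₀, mul_assoc (K₅ + K₆ + 1), mul_assoc (K₅ + K₆ + 1)]
        gcongr
      have g1 : ∀ t, 0 ≤ GF D (zc β α Φ) t := fun t => integral_nonneg fun _ => by positivity
      have g2 : ∀ t, 0 ≤ GP D (zc β α Φ) t := fun t => integral_nonneg fun _ => by positivity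
      refine ⟨(iF _ s _ (A * ε) (by positivity) (by positivity) ((b5 α Φ sv _ ε (win_op s 2) e2
        ((lα.of_le (by omega)).sub (sub s hs 2 (by norm_num)))).mono (by gcongr))
        fun t ht => (le_add_of_nonneg_right (g2 t)).trans (h1 t ht)).mono (h3 _ (by linarith)),
        (iP _ s _ (A * ε) (by positivity) (by positivity) ((lΦ.of_le (by omega)).mono'
        (sub s hs 2 (by norm_num)) (le_mul_of_one_le_left e0.le a1)) fun t ht => ?_).mono
        (h3 _ (by linarith))⟩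
      refine le_trans (le_of_eq ?_) ((le_add_of_nonneg_left (g1 t)).trans (h1 t ht))
      refine integral_congr_ae (Eventually.of_forall fun y => ?_)
      change _ = ‖β.Φ y + Φ (y, t)‖ ^ 2
      rw [hb.zr, zero_add]
  have t0 : (p + q) / 2 ∈ Icc p q := ⟨by linarith, by linarith⟩
  obtain ⟨g, hg⟩ := tm α Φ sv p q _ (fun s => c₀ * wt (l / 4) p q s) t0
    (by unfold wt; fun_prop) fun s hs => by
      have w0 := wt_pos (l / 4) p q s
      have w1 := mul_le_mul_of_nonneg_left (wt_two hl4 hs) p0.le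
      refine ⟨by positivity, by linarith, (wt_int hl4 p0.le s).trans ?_,
        (lα.of_le (by omega)).mono' (sub s hs 1 (by norm_num)) e2,
        (key s hs).2.of_le (by omega), (key s hs).1.of_le (by omega)⟩
      rw [div_le_one hl4]
      linarith
  have m0 : ∀ y : Y, (y, (p + q) / 2) ∈ win Y ((p + q) / 2) 1 := fun y =>
    ⟨trivial, by linarith, by linarith⟩
  have w0 := wt_pos (l / 4) p q ((p + q) / 2)
  obtain ⟨h, n, n1, n2, n3, n4⟩ := nr _ (z2 ((p + q) / 2)) (fun i => (b6 _ j₄ η₄).1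
    (fun x => α x (some i)) _ _ ((PiLp.proj 2 (fun _ => β.m.A) (some i)).contMDiff.comp sv.sα) m0
    (lb_ap (win_op _ 1) ((lα.of_le (by omega)).mono' (sub _ t0 1 (by norm_num)) e3) hη₄.le _))
    (c₀ * wt (l / 4) p q ((p + q) / 2)) (by positivity) fun i j => by
      rw [show By D β (sl β α ((p + q) / 2)) i j = _ from funext fun y => (z3 hb.flat y _ i j).symm]
      exact (b6 β.m.A j₄ _).1 (fun x => (zc β α Φ).m.Fg D.Z (zc β α Φ).W x (some i, some j)) _ _
        (Wz78.sm_Fg hb.ok.G z1.conn (Std94.sm_pg hb.ok.B z1.ok) _) m0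
        (lb_ap (win_op _ 1) ((key _ t0).1.of_le (by omega)) (by positivity) _)
  refine ⟨h, n1, n2, b2 h 0 n1.toFo ⟨contMDiff_const, fun x => map_zero _⟩,
    b4 hb.flat h 0 n1.toFo fun i j y => by rw [By, n1.ed, hc h n1, add_zero],
    fun x => (n x.1 ∘L g x) ∘L u x, fun s hs => ?_⟩
  have w1 := wt_pos (l / 4) p q s
  have sn : Sm I3 n := fun y => sm_slice (t := 0) (n4.iso.su _ trivial)
  refine cl_eq0 (hu.mono (sub s hs 1 (by norm_num))) ((cl_comp (hg s hs)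
    (n4.mono (win_op s 1) (subset_univ _) le_rfl le_rfl)
    ((((b6 _ k K₄).2 n sn n3).sub (subset_univ _)).mono (abs_of_nonneg hK₄).le)
    hb.adm.adm.ok.Jsq (by positivity) hK₄).mono (win_op s 1) Subset.rfl le_rfl ?_)
  obtain ⟨v1, v2⟩ := wt_le (p := p) (q := q) (s := s) hl4
  have v3 := wt_int (p := p) (q := q) hl4 p0.le s
  calc _ ≤ K₄ * (c₀ * (2 * exp (-(l / 4) * min (s - p) (q - s)))) + 2 ^ k * K₄ * (2 ^ k * K₄ + 1) *
        (K₃ * (c₀ * (2 * exp (-(l / 4) * min (s - p) (q - s))) +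
          c₀ * (2 * exp (-(l / 4) * min (s - p) (q - s))) / (l / 4))) := by
        gcongr
        exact v3.trans (by gcongr)
    _ = 2 * (K₄ + 2 ^ k * K₄ * (2 ^ k * K₄ + 1) * (K₃ * (1 + 1 / (l / 4)))) * ((K₅ + K₆ + 1) * A) *
        ε * exp (-(l / 4) * min (s - p) (q - s)) := by rw [hc₀]; ring
    _ ≤ _ := by gcongr

/-- **RDEC on ends** -/
theorem ends (de : DeceStmt I3 Y κ lam) (out : OutgStmt I3 Y κ lam) : EndStmt I3 Y κ lam := by
  intro D β hb hc hp
  obtain ⟨d, hd, de⟩ := de D β hb hc hp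
  refine ⟨d, hd, fun r c σ T ζ hσ ha he hl => out D β hb.ok hb.adm r c σ d T ζ hσ hd ha
    (fun k => ?_) hl⟩
  obtain ⟨η, hη, de⟩ := de k 1 one_pos
  obtain ⟨u, hu⟩ := hl
  obtain ⟨T₁, h1⟩ := hu ⌈η⁻¹⌉₊ η hη
  obtain ⟨a, a0, a1, a2⟩ : ∃ a : ℝ, 0 ≤ a ∧ T + η⁻¹ ≤ a ∧ T₁ + η⁻¹ ≤ a :=
    ⟨max 0 (max (T + η⁻¹) (T₁ + η⁻¹)), le_max_left _ _,
      (le_max_left _ _).trans (le_max_right _ _), (le_max_right _ _).trans (le_max_right _ _)⟩
  have e1 : 1 ≤ exp (d * a) := one_le_exp (by positivity)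
  refine ⟨exp (d * a), a, fun s hs => ?_⟩
  obtain ⟨h, n1, n2, -, -, v, hv⟩ := de r c (s - (σ * s - a)) (s + (σ * s - a)) (by linarith)
    fun t ht => by
      have sub : ∀ T', T' + η⁻¹ ≤ a → win Y t η⁻¹ ⊆ univ ×ˢ {s | T' < σ * s} := fun T' h =>
        prod_mono_right fun x hx => show T' < σ * x by
          rcases hσ with rfl | rfl <;> linarith [ht.1, ht.2, hx.1, hx.2]
      exact ⟨ha.mono (sub T a1), fun x hx => he x (sub T a1 hx), u, ζ, Cl.cls hb.adm isOpen_Ioo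
        (ha.mono (sub T a1)) (h1.mono (win_op _ _) (sub T₁ a2) le_rfl le_rfl)⟩
  refine ⟨h, 0, v, 1, n1.toFo, ⟨contMDiff_const, fun x => map_zero _⟩,
    fun i => Sob92.CB_mono (n2 i) e1,
    Sob92.CB_mono (Sob92.CB_const k 0) (by simpa using e1.trans' zero_le_one),
    (hv s ⟨by linarith, by linarith⟩).mono (win_op s 1) Subset.rfl le_rfl (le_of_eq ?_)⟩
  rw [sub_sub_cancel, add_sub_cancel_left, min_self, one_mul, ← exp_add,
    show |s| = σ * s by
      rcases hσ with rfl | rfl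
      · rw [abs_of_nonneg (by linarith), one_mul]
      · rw [abs_of_nonpos (by linarith), neg_one_mul]]
  congr 1
  ring

end Crest.Agent.X212.Rd3
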