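import Crest.Agent.X212.Rd3.Main
import Crest.Agent.X212.Spn45.Aff
import Crest.Agent.X212.Tmp64.Cfg

/-!
# X212/Rd3/Win (helper3): RD-WIN, one global small configuration
-/

set_option autoImplicit false
set_option linter.unusedSectionVars false
noncomputable section
open scoped Manifold ContDiff Topology InnerProductSpace
open MeasureTheory Set Function Filter Real

namespace Crest.Agent.X212.Rd3
open An Nd18 Cyf70 Rdc90 Bki64 Pj41
open Tmp64 (Eq0 AdmOn sq sw sqC sqM psh)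
open Neck67 (Lb)
open Wz78 (nab dir curv)

section gen
variable {E : Type} [NormedAddCommGroup E] [NormedSpace ℝ E] [FiniteDimensional ℝ E]
  [MeasurableSpace E] [BorelSpace E]
  {HM : Type} [TopologicalSpace HM] {I : ModelWithCorners ℝ E HM}
  {M : Type} [TopologicalSpace M] [ChartedSpace HM M] [IsManifold I ∞ M]
  [MeasurableSpace M] {ι : Type} [Fintype ι] {lam : Type} [Fintype lam] {r : ℕ}
  {B : Base M ι lam} {G : Geo I M ι lam} {O : Set M}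

theorem lb_pi (F : Pre I M ι) (α V : Type) [Fintype α] [NormedAddCommGroup V] [NormedSpace ℝ V] :
    ∃ K : ℝ, ∀ (f : M → Fm α V) (O : Set M) (k : ℕ) (C : ℝ), IsOpen O → 0 ≤ C →
      (∀ a, Lb F O k (fun x => f x a) C) → Lb F O k f (K * C) := by
  classical
  let L : α → V →L[ℝ] Fm α V := fun a =>
    (PiLp.continuousLinearEquiv 2 ℝ fun _ : α => V).symm.toContinuousLinearMap ∘L
      ContinuousLinearMap.single ℝ (fun _ : α => V) a
  refine ⟨Fintype.card α * ∑ a, ‖L a‖, fun f O k C hO hC h => ((Lb.sum hO Finset.univ fun a _ =>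
    ((h a).clm hO (L a)).mono (mul_le_mul_of_nonneg_right (Finset.single_le_sum
      (fun a _ => norm_nonneg (L a)) (Finset.mem_univ a)) hC)).mono
        (mul_assoc _ _ _).ge).congr hO fun x _ => ?_⟩
  ext1 a
  simp [L, Pi.single_apply, Finset.sum_apply]

theorem admOn_loc {c : Cfg M ι lam r} {O₀ : Set M} (h0 : AdmOn c B G O₀)
    (h : ∀ x ∈ O, ∃ O', x ∈ O' ∧ AdmOn c B G O') : AdmOn c B G O :=
  ⟨OKOn.of_local h0.ok.Jsq h0.ok.Jsk fun x hx => (h x hx).imp fun _ k => ⟨k.1, k.2.ok⟩,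
    ConnOn.of_local fun x hx => (h x hx).imp fun _ k => ⟨k.1, k.2.conn⟩,
    fun x hx => let ⟨_, k, k'⟩ := h x hx; k'.sm x k, fun x hx => let ⟨_, k, k'⟩ := h x hx; k'.pos x k,
    h0.z⟩

theorem eq0_vr {F : Fr I M ι} {c : Cfg M ι lam r} {c₀ : Cfg M ι lam 0} {u : M → CL c.m.V c₀.m.V}
    {α : M → Fm ι c₀.m.A} {φ : M → c₀.m.V} (hu : Iso0 I c.m c₀.m O u)
    (h : ∀ x ∈ O, ∀ a, cov F c c₀ u a x = -(opL (α x a) ∘L u x))
    (hΦ : ∀ x ∈ O, c₀.Φ x + φ x = u x (c.Φ x)) : Eq0 F (noz c) (vr c₀ α φ) O u := by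
  refine ⟨hu, fun x hx a => ?_, hΦ, Subsingleton.elim _ _⟩
  have : F.D a u x + (c₀.W a x + opL (α x a)) ∘L u x - u x ∘L c.W a x = 0 := by
    rw [← eq_neg_iff_add_eq_zero.1 (h x hx a), cov, ContinuousLinearMap.add_comp]
    abel
  exact this

/-- a configuration is a variation of any other one on an isomorphic module -/
theorem exists_vr (hB : B.OK I) (hG : G.OK B) {c c₀ : Cfg M ι lam 0} (hc : c.Adm B G)
    (h₀ : c₀.Adm B G) {u : M → CL c.m.V c₀.m.V} (hu : Iso0 I c.m c₀.m univ u) :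
    ∃ α : M → Fm ι c₀.m.A, Sm I α ∧ (∀ x, c₀.m.p1 B x (α x) = α x) ∧
      (Sm I fun x => u x (c.Φ x)) ∧ (∀ x, c₀.m.pp B x (u x (c.Φ x)) = u x (c.Φ x)) ∧
      ∀ x a, cov G.F c c₀ u a x = -(opL (α x a) ∘L u x) := by
  obtain ⟨h1, h2⟩ := Tmp64.psh_spec hB hG.P hc h₀.ok hu
  have h3 : c₀.m.IsConn B G (pshC G.F u c.W) := h1.conn
  refine ⟨_, Spn45.sm_dif h₀.ok h₀.conn h3, Spn45.p1_dif h₀.conn h3 h₀.ok, h1.sm, h1.pos,
    fun x a => ?_⟩
  have h4 : G.F.D a u x + pshC G.F u c.W a x ∘L u x - u x ∘L c.W a x = 0 := h2.par x trivial a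
  rw [Spn45.dif_apply, Wz78.opL_hsL, ← Spn45.sub_p h₀.conn h3, ContinuousLinearMap.mul_def,
    ContinuousLinearMap.comp_assoc, (hu.iso x trivial).left, ContinuousLinearMap.sub_comp,
    eq_neg_iff_add_eq_zero, ← h4, cov]
  abel

end gen

theorem exists_clamp (m : ℝ) {R : ℝ} (hR : 0 < R) : ∃ θ : ℝ → ℝ, ContDiff ℝ ∞ θ ∧
    (∀ s, θ s ∈ Icc (m - (R + 1)) (m + (R + 1))) ∧ ∀ s ∈ Ioo (m - R) (m + R), θ s = s := by
  let f : ContDiffBump m := ⟨R, R + 1, hR, by linarith⟩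
  refine ⟨fun s => m + f s * (s - m), contDiff_const.add (f.contDiff.mul (by fun_prop)),
    fun s => ?_, fun s hs => ?_⟩
  · have : |f s * (s - m)| ≤ R + 1 := by
      by_cases h : |s - m| < R + 1
      · rw [abs_mul, abs_of_nonneg f.nonneg]
        exact (mul_le_of_le_one_left (abs_nonneg _) f.le_one).trans h.le
      · rw [f.zero_of_le_dist (not_lt.1 h), zero_mul, abs_zero]
        positivity
    exact ⟨by linarith [(abs_le.1 this).1], by linarith [(abs_le.1 this).2]⟩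
  · show m + f s * (s - m) = s
    rw [f.one_of_mem_closedBall (show |s - m| ≤ R from
      abs_le.2 ⟨by linarith [hs.1], by linarith [hs.2]⟩), one_mul, add_sub_cancel]

variable {E3 : Type} [NormedAddCommGroup E3] [NormedSpace ℝ E3] [FiniteDimensional ℝ E3]
  [MeasurableSpace E3] [BorelSpace E3]
  {H3 : Type} [TopologicalSpace H3] {I3 : ModelWithCorners ℝ E3 H3} [I3.Boundaryless]
  {Y : Type} [TopologicalSpace Y] [ChartedSpace H3 Y] [IsManifold I3 ∞ Y] [T2Space Y]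
  [MeasurableSpace Y] [BorelSpace Y] [SecondCountableTopology Y] [CompactSpace Y]
  {κ : Type} [Fintype κ] {lam : Type} [Fintype lam]

/-- slowly varying phases are bounded -/
theorem lb_phase (F : Pre I3 Y κ) (k : ℕ) : ∃ A ≥ (1 : ℝ), ∀ (θ : ℝ → ℝ) (O : Set (Y × ℝ)),
    IsOpen O → ContDiff ℝ ∞ θ → (∀ j, 1 ≤ j → j ≤ k → ∀ t, |iteratedDeriv j θ t| ≤ 1) →
    Lb (cylP F) O k (fun x => Complex.exp (-(θ x.2 * Complex.I))) A := by
  have sm : ∀ {θ : ℝ → ℝ}, ContDiff ℝ ∞ θ → ContDiff ℝ ∞ fun t => Complex.exp (-(θ t * Complex.I)) :=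
    fun h => ((Complex.ofRealCLM.contDiff.comp h).mul contDiff_const).neg.cexp
  have h0 : ∀ (θ : ℝ → ℝ) (O : Set (Y × ℝ)), ContDiff ℝ ∞ θ →
      Lb (cylP F) O 0 (fun x => Complex.exp (-(θ x.2 * Complex.I))) 1 := fun θ O h x _ =>
    ⟨sm_snd (sm h) x, by simp [Complex.norm_exp]⟩
  induction k with
  | zero => exact ⟨1, le_rfl, fun θ O _ h _ => h0 θ O h⟩
  | succ k ih =>
    obtain ⟨A, hA, ih⟩ := ih
    refine ⟨max 1 (2 ^ k * |1| * |‖ContinuousLinearMap.mul ℝ ℂ (-Complex.I)‖ * A|), le_max_left _ _,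
      fun θ O hO h hb => ⟨(h0 θ O h).mono (le_max_left _ _), fun a => ?_⟩⟩
    cases a with
    | some a => rw [D_some_snd F (sm h)]; exact (Lb.const hO 0).mono (by simp)
    | none =>
      rw [D_none_snd F (sm h)]
      refine (((lb_snd hO zero_le_one (contDiff_infty_iff_deriv.1 h).2 fun j hj x _ => by
        rw [← iteratedDeriv_succ']; exact hb _ (by omega) (by omega) _).smul hO
        ((ih θ O hO h fun j a b => hb j a (by omega)).clm hO
          (ContinuousLinearMap.mul ℝ ℂ (-Complex.I)))).mono (le_max_right _ _)).congr hO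
        fun x _ => ?_
      refine (((h.differentiable (by simp)) x.2).hasDerivAt.ofReal_comp.mul_const
        Complex.I).neg.cexp.deriv.trans ?_
      simp [mul_comm, mul_left_comm, mul_assoc]

variable {D : YD I3 Y κ lam} {r : ℕ} {c : Cfg (Y × ℝ) (Option κ) lam r} {θ : ℝ → ℝ} {J : Set ℝ}

theorem sq_ev (hJ : IsOpen J) (h : ∀ s ∈ J, θ s = s) {x : Y × ℝ} (hx : x ∈ univ ×ˢ J) :
    ∀ᶠ y in 𝓝 x, sq θ y = y ∧ ∀ a : Option κ, sw θ a y.2 = 1 := by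
  filter_upwards [(isOpen_univ.prod hJ).mem_nhds hx] with y hy
  refine ⟨Prod.ext rfl (h _ hy.2), fun a => ?_⟩
  cases a with
  | none =>
    exact (EventuallyEq.deriv_eq (f := id) (Eventually.mono (hJ.mem_nhds hy.2) h)).trans
      (deriv_id _)
  | some a => rfl

theorem eqs_sq (hJ : IsOpen J) (h : ∀ s ∈ J, θ s = s) (he : Eqs D c (univ ×ˢ J)) :
    Eqs D (sqC θ (noz c)) (univ ×ˢ J) := fun x hx => by
  have e := sq_ev (κ := κ) hJ h hx
  have e0 := e.self_of_nhds.1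
  have e1 : ∀ a, (fun y => sw θ a y.2 • c.W a (sq θ y)) =ᶠ[𝓝 x] c.W a := fun a =>
    e.mono fun y hy => by simp only [hy.1, hy.2, one_smul]
  have e2 : (fun y => c.Φ (sq θ y)) =ᶠ[𝓝 x] c.Φ := e.mono fun y hy => by simp only [hy.1]
  refine ⟨?_, ?_⟩
  · refine Eq.trans ?_ (he x hx).1
    change ∑ a, c.m.ρ a (sq θ x) (D.Z.D a (fun y => c.Φ (sq θ y)) x +
      (sw θ a x.2 • c.W a (sq θ x)) (c.Φ (sq θ x))) = _
    simp only [Pre.D_def, Sob92.dv_congr e2, e0, e.self_of_nhds.2, one_smul]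
    rfl
  · have := (he x hx).2
    change idx (D.B.sd x) (c.m.pg (sq θ x)) (WithLp.toLp 2 fun s => c.m.pg (sq θ x) (hsL (curv _ _ _
      (fun a y => sw θ a y.2 • c.W a (sq θ y)) s.1 s.2 x))) = idx (D.B.sd x) (c.m.pg (sq θ x))
      (WithLp.toLp 2 fun s => c.m.q (sq θ x) (c.Φ (sq θ x))
        (c.m.ρ s.1 (sq θ x) (c.m.ρ s.2 (sq θ x) (c.Φ (sq θ x)))))
    simp only [curv, Sob92.dv_congr (e1 _), e0, e.self_of_nhds.2, one_smul]
    exact this

theorem cov_sq (hJ : IsOpen J) (h : ∀ s ∈ J, θ s = s) {r' : ℕ} {c' : Cfg (Y × ℝ) (Option κ) lam r'}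
    {u : Y × ℝ → CL c.m.V c'.m.V} {x : Y × ℝ} (hx : x ∈ univ ×ˢ J) (a : Option κ) :
    cov D.Z c c' u a x = cov D.Z (sqC θ (noz c)) c' (fun x => u (sq θ x)) a x := by
  have e := sq_ev (κ := κ) hJ h hx
  have e' : D.Z.D a (fun x => u (sq θ x)) x = D.Z.D a u x :=
    Sob92.dv_congr (e.mono fun y hy => congrArg u hy.1)
  change _ = D.Z.D a (fun x => u (sq θ x)) x + c'.W a x ∘L u (sq θ x) -
    u (sq θ x) ∘L (sw θ a x.2 • c.W a (sq θ x))
  rw [e', e.self_of_nhds.1, e.self_of_nhds.2, one_smul, cov]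

theorem eqs_eq0 (hD : D.OK) {c c' : Cfg (Y × ℝ) (Option κ) lam r} (hc : c.Adm D.B D.G)
    (hc' : c'.Adm D.B D.G) {u : Y × ℝ → CL c.m.V c'.m.V} (h : Eq0 D.Z c c' univ u)
    {O : Set (Y × ℝ)} (he : Eqs D c O) : Eqs D c' O := fun x hx => by
  have k := Eq0.lm (G := D.G) h isOpen_univ hD.B hD.G hc hc'
  have e := k.me x trivial
  have b := k.be x trivial
  refine ⟨(k.dir (mem_univ x) (hc.sm x) (hc'.sm x) (Eventually.of_forall fun y =>
    h.Φ y trivial)).trans ((congrArg (u x) (he x hx).1).trans (map_zero _)), ?_⟩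
  have h1 := k.Fg (mem_univ x)
  have h2 := e.mu b hD.B hD.B hc.ok hc'.ok (c.Φ x) (c.Φ x)
  rw [← h.Φ x trivial, ← (he x hx).2, ← e.p2 b hD.B hD.B hc.ok hc'.ok] at h2
  exact (congrArg (c'.m.p2 D.B x) h1).trans h2.symm

/-- **RD-WIN** -/
theorem winStmt : WinStmt I3 Y κ lam := by
  intro D β hD hβ hz j ε hε
  obtain ⟨A, -, hA⟩ := lb_phase D.F.toPre j
  obtain ⟨K, hK⟩ := lb_pi D.Z.toPre (Option κ) β.m.A
  obtain ⟨δ, ⟨e1, e2, e3⟩, e0⟩ := (((small 1 one_pos).and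
    ((small (K * ‖(-hsL : CL (En (Fin β.m.N)) β.m.A)‖) hε).and
    (small (2 ^ j * |‖csB β.m.J‖ * A|) hε))).and self_mem_nhdsWithin).exists
  replace e0 : 0 < δ := e0
  obtain ⟨η, hη, g1⟩ := g1' hD hβ j e0
  have h0 : 0 < min η 12⁻¹ := lt_min hη (by norm_num)
  have h1 : 12 ≤ (min η 12⁻¹)⁻¹ := by simpa using inv_anti₀ h0 (min_le_right _ _)
  refine ⟨_, h0, fun r c p q hpq hN => ?_⟩
  have near : ∀ s ∈ Icc (p - 5) (q + 5), ∃ s' ∈ Icc p q,
      win Y s 7 ⊆ win Y s' (min η 12⁻¹)⁻¹ := fun s hs =>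
    ⟨max p (min s q), ⟨le_max_left _ _, max_le hpq (min_le_right _ _)⟩, win_sub (by
      have : |s - max p (min s q)| ≤ 5 := by
        rw [abs_le, max_def, min_def]
        split_ifs <;> constructor <;> linarith [hs.1, hs.2]
      linarith)⟩
  obtain ⟨u, ϑ, hu⟩ := g1 r c _ ordConnected_Icc fun s hs => by
    obtain ⟨s', a, b⟩ := near s hs
    obtain ⟨a1, -, u, ζ, a2⟩ := hN s' a
    exact ⟨a1.mono b, u, ζ, Cn.mono (cl_of_cls hβ a1 a2) (win_op _ _) b h0 (min_le_left _ _)⟩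
  have ad : AdmOn c D.B D.G (univ ×ˢ Icc (p - 5) (q + 5)) :=
    admOn_loc (hN p ⟨le_rfl, hpq⟩).1 fun x hx =>
      let ⟨s', a, b⟩ := near x.2 hx.2
      ⟨_, b ⟨trivial, by linarith, by linarith⟩, (hN s' a).1⟩
  obtain ⟨θ, t1, t2, t3⟩ := exists_clamp ((p + q) / 2) (R := (q - p) / 2 + 4) (by linarith)
  rw [show (p + q) / 2 - ((q - p) / 2 + 4) = p - 4 by ring,
    show (p + q) / 2 + ((q - p) / 2 + 4) = q + 4 by ring] at t3
  rw [show (p + q) / 2 - ((q - p) / 2 + 4 + 1) = p - 5 by ring,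
    show (p + q) / 2 + ((q - p) / 2 + 4 + 1) = q + 5 by ring] at t2
  have ho : IsOpen (univ ×ˢ Ioo (p - 4) (q + 4) : Set (Y × ℝ)) := isOpen_univ.prod isOpen_Ioo
  have s1 : (univ ×ˢ Ioo (p - 4) (q + 4) : Set (Y × ℝ)) ⊆ univ ×ˢ Icc (p - 5) (q + 5) :=
    prod_mono_right fun t ht => ⟨by linarith [ht.1], by linarith [ht.2]⟩
  have s2 : (univ ×ˢ Icc (p - 5) (q + 5) : Set (Y × ℝ)) ⊆
      univ ×ˢ Metric.thickening 1 (Icc (p - 5) (q + 5)) :=
    prod_mono_right (Metric.self_subset_thickening one_pos _)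
  have m : ∀ x : Y × ℝ, sq θ x ∈ univ ×ˢ Metric.thickening 1 (Icc (p - 5) (q + 5)) := fun x =>
    s2 ⟨trivial, t2 _⟩
  have c1 : (sqC θ (noz c)).Adm D.B D.G := (cyD D).adm_sq_of_band t1 t2
    (⟨ad.ok, ad.conn, ad.sm, ad.pos, .inl rfl⟩ : AdmOn (noz c) D.B D.G _)
  have i := hu.cl.iso
  have i' : Iso0 (IC I3) (sqC θ (noz c)).m (cy β).m univ fun x => u (sq θ x) :=
    ⟨fun x _ => Tmp64.fsm_sq t1 (i.su _ (m x)), fun x _ => i.iso _ (m x),
      fun x _ => i.J _ (m x), fun x _ => i.ρ _ (m x), fun x _ => i.j _ (m x)⟩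
  obtain ⟨α, a1, a2, a3, a4, a5⟩ := exists_vr hD.B hD.G c1 hβ.adm i'
  obtain ⟨Φ, hΦ⟩ : ∃ Φ : Y × ℝ → β.m.V, Φ = fun x => u (sq θ x) (c.Φ (sq θ x)) := ⟨_, rfl⟩
  have sv : Sv D β α Φ := hΦ ▸ ⟨a1, a2, a3, a4⟩
  have z : ∀ x, β.Φ x.1 + Φ x = Φ x := fun x => by rw [hz, zero_add]
  have c2 : (zc β α Φ).Adm D.B D.G := ⟨hβ.adm.ok, Spn45.isConn_addC hβ.adm.ok hβ.adm.conn a1 a2,
    hβ.adm.sm.add sv.sΦ, fun x => (congrArg _ (z x)).trans ((sv.pos x).trans (z x).symm), .inl rfl⟩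
  have e : ∀ x ∈ (univ ×ˢ Ioo (p - 4) (q + 4) : Set (Y × ℝ)), sq θ x = x := fun x hx =>
    Prod.ext rfl (t3 _ hx.2)
  have cl := hu.cl.mono ho (s1.trans s2) le_rfl le_rfl
  have cv : ∀ x ∈ (univ ×ˢ Ioo (p - 4) (q + 4) : Set (Y × ℝ)), ∀ a,
      cov D.Z c (cy β) u a x = -(opL (α x a) ∘L u x) := fun x hx a =>
    ((cov_sq isOpen_Ioo t3 hx a).trans (a5 x a)).trans (by rw [e x hx]; rfl)
  refine ⟨α, Φ, u, sv, eqs_eq0 hD (c := noz (sqC θ (noz c))) ⟨c1.ok, c1.conn, c1.sm, c1.pos, c1.z⟩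
    c2 (eq0_vr i' (fun x _ => a5 x) fun x _ => (z x).trans (congrFun hΦ x))
    (eqs_sq isOpen_Ioo t3 fun x hx => ?_),
    (hK α _ j _ ho (by positivity) fun a => ((cl.A a).clm ho (-hsL)).congr ho
      fun x hx => ?_).mono (by rw [← mul_assoc]; exact e2),
    ((((hA ϑ _ ho hu.sm fun i a b t => (hu.bd i a (by omega) t).trans (by linarith)).clm ho
      (csB β.m.J)).app ho cl.P).mono (by rw [abs_of_pos e0]; exact e3)).congr ho fun x hx => ?_,
    ad.mono s1, eq0_vr cl.iso cv fun x hx => (z x).trans (by rw [hΦ]; simp only [e x hx]; rfl)⟩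
  · obtain ⟨s', a, b⟩ := near x.2 (s1 hx).2
    exact (hN s' a).2.1 x (b ⟨trivial, by linarith, by linarith⟩)
  · rw [dA, cv x hx, ContinuousLinearMap.neg_comp, ContinuousLinearMap.comp_assoc, ← ad_trn,
      (cl.iso.iso x hx).tgt, ← ContinuousLinearMap.mul_def,
      Wz78.g_p' hβ.adm.ok ((Spn45.p1_iff.1 (a2 x)).1 a)]
    simp
  · rw [hΦ, dP, show (cy β).Φ x = 0 from hz _, sub_zero, csB_apply]
    simp only [e x hx]
    refine ((Eqv71.cs_mul hβ.adm.ok.Jsq _ _ _).trans ?_).symm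
    rw [Circle.coe_exp, ← Complex.exp_add, neg_add_cancel, Complex.exp_zero, Eqv71.cs_one]
    rfl

end Crest.Agent.X212.Rd3
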